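import Mathlib

set_option autoImplicit false

open MeasureTheory Set Real
open scoped ENNReal

namespace Crest.Agent.R280

/-- The mean-one exponential law. -/
noncomputable def nu : Measure ℝ :=
  (volume.restrict (Ioi (0 : ℝ))).withDensity (fun x => ENNReal.ofReal (Real.exp (-x)))

lemma meas_dens : Measurable (fun x : ℝ => ENNReal.ofReal (Real.exp (-x))) := by fun_prop

lemma lintegral_nu (f : ℝ → ℝ≥0∞) (hf : Measurable f) :
    ∫⁻ x, f x ∂nu = ∫⁻ x in Ioi (0 : ℝ), ENNReal.ofReal (Real.exp (-x)) * f x := by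
  unfold nu
  rw [lintegral_withDensity_eq_lintegral_mul _ meas_dens hf]
  rfl

lemma integral_nu (f : ℝ → ℝ) :
    ∫ x, f x ∂nu = ∫ x in Ioi (0 : ℝ), Real.exp (-x) * f x := by
  unfold nu
  rw [integral_withDensity_eq_integral_toReal_smul meas_dens (by simp)]
  refine integral_congr_ae (Filter.Eventually.of_forall fun x => ?_)
  simp [ENNReal.toReal_ofReal (Real.exp_pos _).le]

lemma integrable_nu (f : ℝ → ℝ) :
    Integrable f nu ↔ IntegrableOn (fun x => Real.exp (-x) * f x) (Ioi (0 : ℝ)) := by
  unfold nu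
  rw [integrable_withDensity_iff_integrable_smul' meas_dens (by simp)]
  refine integrable_congr (Filter.Eventually.of_forall fun x => ?_)
  simp [ENNReal.toReal_ofReal (Real.exp_pos _).le]

lemma nu_apply (s : Set ℝ) (hs : MeasurableSet s) :
    nu s = ∫⁻ x in s ∩ Ioi (0 : ℝ), ENNReal.ofReal (Real.exp (-x)) := by
  unfold nu
  rw [withDensity_apply _ hs, Measure.restrict_restrict hs]

lemma lintegral_exp_Ioi (k : ℝ) :
    ∫⁻ x in Ioi k, ENNReal.ofReal (Real.exp (-x)) = ENNReal.ofReal (Real.exp (-k)) := by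
  rw [← ofReal_integral_eq_lintegral_ofReal (integrableOn_exp_neg_Ioi k)
    (Filter.Eventually.of_forall fun x => (Real.exp_pos _).le), integral_exp_neg_Ioi]

instance : IsProbabilityMeasure nu := ⟨by
  rw [nu_apply _ MeasurableSet.univ, univ_inter, lintegral_exp_Ioi]; simp⟩

lemma nu_Ioi (k : ℝ) (hk : 0 ≤ k) : nu (Ioi k) = ENNReal.ofReal (Real.exp (-k)) := by
  rw [nu_apply _ measurableSet_Ioi, Ioi_inter_Ioi, sup_eq_left.2 hk, lintegral_exp_Ioi]

lemma nu_Ici (k : ℝ) (hk : 0 ≤ k) : nu (Ici k) = ENNReal.ofReal (Real.exp (-k)) := by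
  rw [nu_apply _ measurableSet_Ici, ← lintegral_exp_Ioi k]
  refine setLIntegral_congr ?_
  have h1 : (Ici k ∩ Ioi (0 : ℝ) : Set ℝ) =ᵐ[volume] (Ioi k ∩ Ioi (0 : ℝ) : Set ℝ) :=
    ae_eq_set_inter Ioi_ae_eq_Ici.symm (ae_eq_refl _)
  rw [Ioi_inter_Ioi, sup_eq_left.2 hk] at h1
  exact h1

lemma nu_ae_pos : ∀ᵐ x ∂nu, 0 < x := by
  rw [ae_iff]
  have : {a : ℝ | ¬ 0 < a} = Iic 0 := by ext; simp
  rw [this, nu_apply _ measurableSet_Iic, Iic_inter_Ioi, Ioc_self]
  simp

/-- memorylessness -/
lemma nu_restrict_Ioi (k : ℝ) (hk : 0 ≤ k) :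
    nu.restrict (Ioi k) = ENNReal.ofReal (Real.exp (-k)) • nu.map (fun x => x + k) := by
  ext s hs
  rw [Measure.restrict_apply hs, Measure.smul_apply, Measure.map_apply (by fun_prop) hs,
    nu_apply _ (hs.inter measurableSet_Ioi), nu_apply _ ((by fun_prop : Measurable _) hs),
    smul_eq_mul, ← lintegral_const_mul _ meas_dens, inter_assoc, Ioi_inter_Ioi, sup_eq_left.2 hk,
    ← lintegral_indicator (hs.inter measurableSet_Ioi),
    ← lintegral_indicator (((by fun_prop : Measurable (fun x : ℝ => x + k)) hs).inter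
      measurableSet_Ioi), ← lintegral_add_right_eq_self _ k]
  refine lintegral_congr fun x => ?_
  by_cases h1 : x + k ∈ s <;> by_cases h2 : 0 < x
  · rw [indicator_of_mem (by simp [h1, h2]), indicator_of_mem (by simp [h1, h2]),
      ← ENNReal.ofReal_mul (Real.exp_pos _).le, ← Real.exp_add]
    congr 2; ring
  · rw [indicator_of_notMem (by simp [h1, h2]), indicator_of_notMem (by simp [h1, h2])]
  · rw [indicator_of_notMem (by simp [h1, h2]), indicator_of_notMem (by simp [h1, h2])]
  · rw [indicator_of_notMem (by simp [h1, h2]), indicator_of_notMem (by simp [h1, h2])]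

lemma lintegral_nu_split (f : ℝ → ℝ≥0∞) (hf : Measurable f) (k : ℝ) (hk : 0 ≤ k) :
    ∫⁻ x, f x ∂nu = ∫⁻ x in Iic k, f x ∂nu
      + ENNReal.ofReal (Real.exp (-k)) * ∫⁻ x, f (x + k) ∂nu := by
  rw [← lintegral_add_compl f (measurableSet_Iic (a := k)), compl_Iic, nu_restrict_Ioi k hk,
    lintegral_smul_measure, lintegral_map hf (by fun_prop), smul_eq_mul]

/-- Wright-type log-concavity. -/
def W (F : ℝ → ℝ≥0∞) : Prop :=
  ∀ s t h : ℝ, s ≤ t → 0 ≤ h → F (s - h) * F t ≤ F s * F (t - h)

/-- Exponential lower control. -/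
def M (α : ℝ) (F : ℝ → ℝ≥0∞) : Prop :=
  ∀ r h : ℝ, 0 ≤ h → ENNReal.ofReal (Real.exp (-(h / α))) * F r ≤ F (r + h)

lemma W.refl {F : ℝ → ℝ≥0∞} (hF : W F) : W (fun r => F (-r)) := by
  intro s t h hst hh
  have := hF (h - t) (h - s) h (by linarith) hh
  simp only [neg_sub]
  rw [show h - t - h = -t by ring, show h - s - h = -s by ring] at this
  rw [mul_comm (F (h - s)), mul_comm (F (-s))]
  exact this

/-- smoothing by an exponential variable -/
noncomputable def smooth (a : ℝ) (F : ℝ → ℝ≥0∞) (r : ℝ) : ℝ≥0∞ := ∫⁻ y, F (r - a * y) ∂nu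

lemma smooth_split {F : ℝ → ℝ≥0∞} (hF : Measurable F) {a : ℝ} (ha : 0 < a) (t h : ℝ)
    (hh : 0 ≤ h) :
    smooth a F t = ∫⁻ x in Iic (h / a), F (t - a * x) ∂nu
      + ENNReal.ofReal (Real.exp (-(h / a))) * smooth a F (t - h) := by
  unfold smooth
  rw [lintegral_nu_split _ (by fun_prop) (h / a) (by positivity)]
  congr 2
  refine lintegral_congr fun x => ?_
  congr 1
  field_simp
  ring

lemma W.smooth_pos {F : ℝ → ℝ≥0∞} (hF : Measurable F) (hW : W F) {a : ℝ} (ha : 0 < a) :
    W (smooth a F) := by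
  intro s t h hst hh
  rw [smooth_split hF ha t h hh, smooth_split hF ha s h hh, mul_add, add_mul]
  refine add_le_add ?_ (le_of_eq (by ring))
  rw [← lintegral_const_mul _ (by fun_prop), ← lintegral_mul_const _ (by fun_prop)]
  refine setLIntegral_mono' measurableSet_Iic fun x hx => ?_
  unfold smooth
  rw [← lintegral_const_mul _ (by fun_prop), ← lintegral_mul_const _ (by fun_prop)]
  refine lintegral_mono_ae ?_
  filter_upwards [nu_ae_pos] with y hy
  have hx' : a * x ≤ h := by
    have : x ≤ h / a := hx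
    rwa [le_div_iff₀ ha, mul_comm] at this
  have := hW (s - a * x) (t - a * x) (h + a * y - a * x) (by linarith) (by nlinarith)
  rw [show s - a * x - (h + a * y - a * x) = s - h - a * y by ring,
    show t - a * x - (h + a * y - a * x) = t - h - a * y by ring] at this
  exact this

lemma W.smooth {F : ℝ → ℝ≥0∞} (hF : Measurable F) (hW : W F) (a : ℝ) : W (smooth a F) := by
  rcases lt_trichotomy a 0 with ha | ha | ha
  · have h1 : W (R280.smooth (-a) (fun r => F (-r))) :=
      W.smooth_pos (by fun_prop) hW.refl (by linarith)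
    have h2 := h1.refl
    have h3 : (fun r => R280.smooth (-a) (fun r => F (-r)) (-r)) = R280.smooth a F := by
      funext r
      unfold R280.smooth
      refine lintegral_congr fun x => ?_
      show F (-(-r - -a * x)) = F (r - a * x)
      congr 1; ring
    rwa [h3] at h2
  · subst ha
    have : R280.smooth 0 F = F := by
      funext r; simp [R280.smooth]
    rwa [this]
  · exact W.smooth_pos hF hW ha

lemma M.smooth_self {F : ℝ → ℝ≥0∞} (hF : Measurable F) {a : ℝ} (ha : 0 < a) :
    M a (smooth a F) := by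
  intro r h hh
  rw [smooth_split hF ha (r + h) h hh, add_sub_cancel_right]
  exact le_add_self

/-- product law -/
noncomputable def PN (N : ℕ) : Measure (Fin N → ℝ) := Measure.pi fun _ => nu

instance (N : ℕ) : IsProbabilityMeasure (PN N) := by unfold PN; infer_instance

lemma PN_eq (N : ℕ) : PN N = (volume.restrict (Set.pi univ fun _ : Fin N => Ioi (0 : ℝ))).withDensity
    (fun x => ENNReal.ofReal (Real.exp (-∑ i, x i))) := by
  unfold PN
  refine Measure.pi_eq fun s hs => ?_
  rw [withDensity_apply _ (MeasurableSet.univ_pi hs), volume_pi, Measure.restrict_pi_pi,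
    Measure.restrict_pi_pi]
  have hint : ∀ i, Integrable (fun x : ℝ => Real.exp (-x))
      ((volume.restrict (Ioi (0 : ℝ))).restrict (s i)) := fun i =>
    Integrable.restrict (integrableOn_exp_neg_Ioi 0)
  have h1 : ∀ x : Fin N → ℝ, Real.exp (-∑ i, x i) = ∏ i, Real.exp (-x i) := by
    intro x
    rw [← Real.exp_sum, Finset.sum_neg_distrib]
  simp_rw [h1]
  rw [← ofReal_integral_eq_lintegral_ofReal (Integrable.fintype_prod_dep hint)
    (Filter.Eventually.of_forall fun x => Finset.prod_nonneg fun i _ => (Real.exp_pos _).le),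
    integral_fintype_prod_eq_prod (fun _ x => Real.exp (-x)),
    ENNReal.ofReal_prod_of_nonneg fun i _ => integral_nonneg fun x => (Real.exp_pos _).le]
  refine Finset.prod_congr rfl fun i _ => ?_
  rw [ofReal_integral_eq_lintegral_ofReal (hint i)
    (Filter.Eventually.of_forall fun x => (Real.exp_pos _).le)]
  unfold nu
  rw [withDensity_apply _ (hs i)]

lemma integral_PN (N : ℕ) (f : (Fin N → ℝ) → ℝ) :
    ∫ x in Set.pi univ (fun _ : Fin N => Ioi (0 : ℝ)), f x * Real.exp (-∑ i, x i)
      = ∫ x, f x ∂(PN N) := by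
  rw [PN_eq, integral_withDensity_eq_integral_toReal_smul (by fun_prop) (by simp)]
  refine integral_congr_ae (Filter.Eventually.of_forall fun x => ?_)
  simp [ENNReal.toReal_ofReal (Real.exp_pos _).le, mul_comm]

/-- law of `c + ∑ a i * x i` -/
noncomputable def law (c : ℝ) {N : ℕ} (a : Fin N → ℝ) : Measure ℝ :=
  (PN N).map fun x => c + ∑ i, a i * x i

lemma meas_lin (c : ℝ) {N : ℕ} (a : Fin N → ℝ) :
    Measurable fun x : Fin N → ℝ => c + ∑ i, a i * x i := by fun_prop

instance (c : ℝ) {N : ℕ} (a : Fin N → ℝ) : IsProbabilityMeasure (law c a) :=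
  Measure.isProbabilityMeasure_map (meas_lin c a).aemeasurable

/-- survival function -/
noncomputable def surv (μ : Measure ℝ) (r : ℝ) : ℝ≥0∞ := μ (Ici r)

lemma surv_anti (μ : Measure ℝ) : Antitone (surv μ) := fun _ _ h =>
  measure_mono (Ici_subset_Ici.2 h)

lemma surv_meas (μ : Measure ℝ) : Measurable (surv μ) := (surv_anti μ).measurable

lemma surv_law_succ (c : ℝ) {N : ℕ} (a : Fin (N + 1) → ℝ) (i : Fin (N + 1)) :
    surv (law c a) = smooth (a i) (surv (law c fun j => a (i.succAbove j))) := by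
  funext r
  unfold surv smooth law
  rw [Measure.map_apply (meas_lin c a) measurableSet_Ici]
  have hp := measurePreserving_piFinSuccAbove (fun _ : Fin (N + 1) => nu) i
  have hm : MeasurableSet {p : ℝ × (Fin N → ℝ) |
      r - a i * p.1 ≤ c + ∑ j, a (i.succAbove j) * p.2 j} :=
    measurableSet_le (by fun_prop) (by fun_prop)
  have h1 := hp.measure_preimage hm.nullMeasurableSet
  rw [Measure.prod_apply hm] at h1
  have h2 : (fun x : Fin (N + 1) → ℝ => c + ∑ i, a i * x i) ⁻¹' Ici r =
      (MeasurableEquiv.piFinSuccAbove (fun _ => ℝ) i) ⁻¹' {p : ℝ × (Fin N → ℝ) |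
      r - a i * p.1 ≤ c + ∑ j, a (i.succAbove j) * p.2 j} := by
    ext x
    simp only [mem_preimage, mem_Ici, Fin.sum_univ_succAbove _ i, mem_ofPred_eq,
      MeasurableEquiv.piFinSuccAbove_apply, Fin.insertNthEquiv, Equiv.coe_fn_symm_mk,
      Fin.removeNth]
    constructor <;> intro h <;> linarith
  unfold PN
  rw [h2, h1]
  refine lintegral_congr fun y => ?_
  simp only []
  rw [Measure.map_apply (meas_lin c _) measurableSet_Ici]
  rfl

lemma W_law (c : ℝ) : ∀ (N : ℕ) (a : Fin N → ℝ), W (surv (law c a))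
  | 0, a => by
    have h : ∀ r, surv (law c a) r = if r ≤ c then 1 else 0 := by
      intro r
      unfold surv law
      rw [Measure.map_apply (meas_lin c a) measurableSet_Ici]
      split_ifs with h
      · have : (fun x : Fin 0 → ℝ => c + ∑ i, a i * x i) ⁻¹' Ici r = univ := by
          ext x; simp [h]
        rw [this, measure_univ]
      · have : (fun x : Fin 0 → ℝ => c + ∑ i, a i * x i) ⁻¹' Ici r = ∅ := by
          ext x; simp [h]
        rw [this, measure_empty]
    intro s t k hst hk
    simp only [h]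
    by_cases ht : t ≤ c
    · rw [if_pos ht, if_pos (by linarith : s - k ≤ c), if_pos (by linarith : s ≤ c),
        if_pos (by linarith : t - k ≤ c)]
    · rw [if_neg ht]; simp
  | N + 1, a => by
    rw [surv_law_succ c a 0]
    exact W.smooth (surv_meas _) (W_law c N _) _

lemma M_law (c : ℝ) {N : ℕ} (a : Fin N → ℝ) (i : Fin N) (hi : 0 < a i) :
    M (a i) (surv (law c a)) := by
  cases N with
  | zero => exact i.elim0
  | succ N =>
    rw [surv_law_succ c a i]
    exact M.smooth_self (surv_meas _) hi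

lemma integrableOn_mul_exp (β : ℝ) (hβ : 0 < β) :
    IntegrableOn (fun x : ℝ => x * Real.exp (-(β * x))) (Ioi 0) := by
  have := integrableOn_rpow_mul_exp_neg_mul_rpow (s := 1) (p := 1) (b := β) (by norm_num)
    (by norm_num) hβ
  simpa using this

lemma integral_mul_exp (β : ℝ) (hβ : 0 < β) :
    ∫ x in Ioi (0 : ℝ), x * Real.exp (-(β * x)) = 1 / β ^ 2 := by
  have := Real.integral_rpow_mul_exp_neg_mul_Ioi (a := 2) (r := β) (by norm_num) hβ
  norm_num at this
  simpa using this

lemma integrable_id_nu : Integrable (fun x : ℝ => x) nu := by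
  rw [integrable_nu]
  have := integrableOn_mul_exp 1 one_pos
  simpa [mul_comm] using this

lemma integral_id_nu : ∫ x, x ∂nu = 1 := by
  rw [integral_nu]
  have := integral_mul_exp 1 one_pos
  simpa [mul_comm] using this

lemma integrable_lin (c : ℝ) {N : ℕ} (a : Fin N → ℝ) :
    Integrable (fun x : Fin N → ℝ => c + ∑ i, a i * x i) (PN N) := by
  refine (integrable_const c).add (integrable_finsetSum _ fun i _ => Integrable.const_mul ?_ _)
  exact integrable_comp_eval (μ := fun _ => nu) (f := fun x => x) integrable_id_nu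

lemma integrable_id_law (c : ℝ) {N : ℕ} (a : Fin N → ℝ) :
    Integrable (fun x : ℝ => x) (law c a) := by
  unfold law
  rw [integrable_map_measure (by fun_prop) (meas_lin c a).aemeasurable]
  exact integrable_lin c a

lemma integral_id_law (c : ℝ) {N : ℕ} (a : Fin N → ℝ) :
    ∫ x, x ∂(law c a) = c + ∑ i, a i := by
  unfold law
  have hi : ∀ i, Integrable (fun x : Fin N → ℝ => x i) (PN N) := fun i =>
    integrable_comp_eval (μ := fun _ => nu) (f := fun x => x) integrable_id_nu
  rw [integral_map (meas_lin c a).aemeasurable (by fun_prop), integral_add (integrable_const c)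
    (integrable_finsetSum _ fun i _ => (hi i).const_mul _),
    integral_finsetSum _ fun i _ => (hi i).const_mul _]
  simp only [integral_const, probReal_univ, smul_eq_mul, one_mul, add_right_inj]
  refine Finset.sum_congr rfl fun i _ => ?_
  rw [integral_const_mul]
  have : ∫ x : Fin N → ℝ, x i ∂(PN N) = 1 := by
    rw [← integral_id_nu]
    exact integral_comp_eval (μ := fun _ => nu) (f := fun x => x) (by fun_prop)
  rw [this, mul_one]

end Crest.Agent.R280
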