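import Crest.Agent.R280.Layer

set_option autoImplicit false

open MeasureTheory Set Real Filter Topology
open scoped ENNReal
open Crest.AlgGeometry

namespace Crest.Agent.R280

lemma exp_third : 4 / 9 * Real.exp (-(1 / 3)) ≤ 8 / 25 := by
  have h := Real.quadratic_le_exp_of_nonneg (x := 1 / 3) (by norm_num)
  have h2 : Real.exp (-(1 / 3)) * Real.exp (1 / 3) = 1 := by rw [← Real.exp_add]; simp
  have h3 := Real.exp_pos (-(1 / 3))
  nlinarith

lemma small_bound (α : ℝ) (h0 : 0 ≤ α) (h1 : α ≤ 4 / 3) :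
    Real.exp (-(4 / 3 - α)) * ((1 + (4 / 3 - α)) / (1 + α) + α / (1 + α) ^ 2) ≤ 17 / 25 := by
  set z := 4 / 3 - α with hz
  have hz0 : 0 ≤ z := by linarith
  have hα : α = 4 / 3 - z := by linarith
  have he : 1 + z + z ^ 2 / 2 + z ^ 3 / 6 ≤ Real.exp z := by
    have := Real.sum_le_exp_of_nonneg hz0 4
    simp [Finset.sum_range_succ, Nat.factorial] at this
    linarith
  have hp : 0 < 1 + α := by linarith
  have h2 : (1 + z) / (1 + α) + α / (1 + α) ^ 2 = ((1 + z) * (1 + α) + α) / (1 + α) ^ 2 := by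
    field_simp
  rw [h2, Real.exp_neg, inv_mul_eq_div, div_div, div_le_iff₀ (by positivity)]
  have h3 : (1 + z) * (1 + α) + α ≤ 17 / 25 * ((1 + α) ^ 2 * (1 + z + z ^ 2 / 2 + z ^ 3 / 6)) := by
    have a0 := mul_nonneg (pow_nonneg hz0 0) (pow_nonneg h0 5)
    have a1 := mul_nonneg (pow_nonneg hz0 1) (pow_nonneg h0 4)
    have a2 := mul_nonneg (pow_nonneg hz0 2) (pow_nonneg h0 3)
    have a3 := mul_nonneg (pow_nonneg hz0 3) (pow_nonneg h0 2)
    have a4 := mul_nonneg (pow_nonneg hz0 4) (pow_nonneg h0 1)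
    have a5 := mul_nonneg (pow_nonneg hz0 5) (pow_nonneg h0 0)
    rw [hα] at a0 a1 a2 a3 a4 a5 ⊢
    nlinarith
  refine h3.trans ?_
  gcongr

lemma expo_bound (α : ℝ) (hα : 0 < α) :
    ∫ x, truncExpWeight (4 / 3 - α + α * x) ∂nu ≤ 1 - 4 / 9 * Real.exp (-(1 / 3)) := by
  rcases le_total α (4 / 3) with h | h
  · rw [G_of_nonneg _ _ (by linarith) hα.le]
    have := small_bound α hα.le h
    have := exp_third
    linarith
  · rw [G_of_nonpos _ _ (by linarith) hα]
    have h1 := Real.add_one_le_exp (2 / 3 * (1 / α - 1 / 2))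
    have h2 : (4 / 3 - α) / α = -(1 / 3) + (2 / 3 * (1 / α - 1 / 2) + 2 / 3 * (1 / α - 1 / 2)) := by
      field_simp; ring
    rw [h2, Real.exp_add, Real.exp_add]
    set E := Real.exp (2 / 3 * (1 / α - 1 / 2))
    have h3 : 2 / 3 ≤ E * (α / (1 + α)) := by
      have : 2 / 3 * (1 / α - 1 / 2) + 1 = 2 / 3 * ((1 + α) / α) := by field_simp; ring
      rw [this] at h1
      have h4 := mul_le_mul_of_nonneg_right h1 (by positivity : 0 ≤ α / (1 + α))
      have h5 : 2 / 3 * ((1 + α) / α) * (α / (1 + α)) = 2 / 3 := by field_simp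
      linarith
    have h4 : 4 / 9 ≤ (E * (α / (1 + α))) ^ 2 := by nlinarith
    have h5 := Real.exp_pos (-(1 / 3))
    nlinarith

lemma three_point {f : ℝ → ℝ} (hf : Continuous f)
    (hm : ∀ x h, 0 ≤ h → f (x - h) + f (x + h) ≤ 2 * f x) {x y z : ℝ} (hxy : x ≤ y) (hyz : y ≤ z) :
    (z - y) * f x + (y - x) * f z ≤ (z - x) * f y := by
  set g : ℝ → ℝ := fun t => (z - x) * f t - ((z - t) * f x + (t - x) * f z) with hg
  have hgc : Continuous g := by fun_prop
  have hxz : x ≤ z := hxy.trans hyz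
  have hgm : ∀ t h, 0 ≤ h → g (t - h) + g (t + h) ≤ 2 * g t := by
    intro t h hh
    have := mul_le_mul_of_nonneg_left (hm t h hh) (sub_nonneg.2 hxz)
    simp only [hg]
    nlinarith
  obtain ⟨m, hm1, hm2⟩ := isCompact_Icc.exists_isMinOn (nonempty_Icc.2 hxz) hgc.continuousOn
  by_contra hcon
  have hneg : g m < 0 := by
    have : g m ≤ g y := hm2 ⟨hxy, hyz⟩
    have : g y < 0 := by simp only [hg]; linarith
    linarith
  have hT : IsCompact (Icc x z ∩ g ⁻¹' {g m}) :=
    isCompact_Icc.inter_right (isClosed_singleton.preimage hgc)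
  obtain ⟨t, ⟨ht1, ht2⟩, ht3⟩ := hT.exists_isLeast ⟨m, hm1, rfl⟩
  have ht2' : g t = g m := ht2
  have hgx : g x = 0 := by simp only [hg]; ring
  have hgz : g z = 0 := by simp only [hg]; ring
  have htx : x < t := lt_of_le_of_ne ht1.1 (by rintro rfl; linarith)
  have htz : t < z := lt_of_le_of_ne ht1.2 (by rintro rfl; linarith)
  set h := min (t - x) (z - t) with hh
  have hh0 : 0 < h := lt_min (by linarith) (by linarith)
  have hh1 : h ≤ t - x := min_le_left _ _
  have hh2 : h ≤ z - t := min_le_right _ _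
  have e1 : g m ≤ g (t + h) := hm2 ⟨by linarith, by linarith⟩
  have e2 : g m ≤ g (t - h) := hm2 ⟨by linarith, by linarith⟩
  have e3 : g (t - h) ≠ g m := by
    intro e
    have : t ≤ t - h := ht3 ⟨⟨by linarith, by linarith⟩, e⟩
    linarith
  have e4 : g m < g (t - h) := lt_of_le_of_ne e2 e3.symm
  have := hgm t h hh0.le
  linarith

lemma concave_of_three {f : ℝ → ℝ}
    (h3 : ∀ x y z, x ≤ y → y ≤ z → (z - y) * f x + (y - x) * f z ≤ (z - x) * f y) :
    ConcaveOn ℝ univ f := by
  refine concaveOn_of_slope_anti_adjacent convex_univ fun {x y z} _ _ hxy hyz => ?_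
  have := h3 x y z hxy.le hyz.le
  rw [div_le_div_iff₀ (by linarith) (by linarith)]
  nlinarith

section
variable (μ : Measure ℝ) [IsProbabilityMeasure μ]

lemma Q_le_one (r : ℝ) : Q μ r ≤ 1 := measureReal_le_one

lemma Q_anti : Antitone (Q μ) := fun _ _ h => measureReal_mono (Ici_subset_Ici.2 h)

lemma Q_tendsto : Tendsto (Q μ) atBot (𝓝 1) := by
  have h := tendsto_measure_Ici_atBot μ
  rw [measure_univ] at h
  have := (ENNReal.tendsto_toReal ENNReal.one_ne_top).comp h
  rw [ENNReal.toReal_one] at this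
  exact this

lemma Q_W (hW : W (surv μ)) (s t h : ℝ) (hst : s ≤ t) (hh : 0 ≤ h) :
    Q μ (s - h) * Q μ t ≤ Q μ s * Q μ (t - h) := by
  have := hW s t h hst hh
  unfold Q Measure.real
  rw [← ENNReal.toReal_mul, ← ENNReal.toReal_mul]
  exact ENNReal.toReal_mono (ENNReal.mul_ne_top (measure_ne_top _ _) (measure_ne_top _ _)) this

lemma Q_M {α : ℝ} (hM : M α (surv μ)) (r h : ℝ) (hh : 0 ≤ h) :
    Real.exp (-(h / α)) * Q μ r ≤ Q μ (r + h) := by
  have := ENNReal.toReal_mono (measure_ne_top _ _) (hM r h hh)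
  rwa [ENNReal.toReal_mul, ENNReal.toReal_ofReal (Real.exp_pos _).le] at this

lemma Q_pos {α : ℝ} (hM : M α (surv μ)) (r : ℝ) : 0 < Q μ r := by
  obtain ⟨r0, h1, h2⟩ := (((Q_tendsto μ).eventually (lt_mem_nhds one_pos)).and
    (eventually_le_atBot r)).exists
  have := Q_M μ hM r0 (r - r0) (by linarith)
  rw [add_sub_cancel] at this
  exact lt_of_lt_of_le (mul_pos (Real.exp_pos _) h1) this

end

/-- The properties of `log` of the survival function that are used. -/
structure Good (μ : Measure ℝ) (φ : ℝ → ℝ) : Prop where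
  eq : ∀ r, Q μ r = Real.exp (φ r)
  cont : Continuous φ
  anti : Antitone φ
  three : ∀ x y z, x ≤ y → y ≤ z → (z - y) * φ x + (y - x) * φ z ≤ (z - x) * φ y

lemma good_log (μ : Measure ℝ) [IsProbabilityMeasure μ] (hW : W (surv μ)) {α : ℝ} (hα : 0 < α)
    (hM : M α (surv μ)) : Good μ (fun r => Real.log (Q μ r)) := by
  have hp := Q_pos μ hM
  have hanti : Antitone (fun r => Real.log (Q μ r)) := fun x y h =>
    Real.log_le_log (hp y) (Q_anti μ h)
  have hlip : ∀ r h, 0 ≤ h → Real.log (Q μ r) - h / α ≤ Real.log (Q μ (r + h)) := by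
    intro r h hh
    have := Real.log_le_log (mul_pos (Real.exp_pos _) (hp r)) (Q_M μ hM r h hh)
    rw [Real.log_mul (Real.exp_pos _).ne' (hp r).ne', Real.log_exp] at this
    linarith
  have hcont : Continuous (fun r => Real.log (Q μ r)) := by
    refine (LipschitzWith.of_dist_le_mul (K := (1 / α).toNNReal) fun x y => ?_).continuous
    rw [Real.coe_toNNReal _ (by positivity), Real.dist_eq, Real.dist_eq]
    rcases le_total x y with h | h
    · have h1 := hlip x (y - x) (by linarith)
      have h2 := hanti h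
      rw [add_sub_cancel] at h1
      simp only at h2
      rw [abs_of_nonneg (by linarith), abs_of_nonpos (by linarith)]
      have : 1 / α * -(x - y) = (y - x) / α := by ring
      linarith
    · have h1 := hlip y (x - y) (by linarith)
      have h2 := hanti h
      rw [add_sub_cancel] at h1
      simp only at h2
      rw [abs_of_nonpos (by linarith), abs_of_nonneg (by linarith)]
      have : 1 / α * (x - y) = (x - y) / α := by ring
      linarith
  refine ⟨fun r => (Real.exp_log (hp r)).symm, hcont, hanti, fun x y z hxy hyz => ?_⟩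
  refine three_point hcont (fun x h hh => ?_) hxy hyz
  have := Q_W μ hW x (x + h) h (by linarith) hh
  rw [add_sub_cancel_right] at this
  have h2 := Real.log_le_log (mul_pos (hp _) (hp _)) this
  rw [Real.log_mul (hp _).ne' (hp _).ne', Real.log_mul (hp _).ne' (hp _).ne'] at h2
  linarith

section
variable {μ : Measure ℝ} [IsProbabilityMeasure μ] {φ : ℝ → ℝ}

lemma Good.nonneg_of_bound (hG : Good μ φ) {u k : ℝ} (h : ∀ r ≤ u, φ r ≤ k) : 0 ≤ k := by
  have h1 : (1 : ℝ) ≤ Real.exp k := by
    refine le_of_tendsto (Q_tendsto μ) ?_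
    filter_upwards [eventually_le_atBot u] with r hr
    rw [hG.eq]; exact Real.exp_le_exp.2 (h r hr)
  exact Real.one_le_exp_iff.1 h1

lemma Good.flat (hG : Good μ φ) {u v : ℝ} (huv : u < v) (h : φ u ≤ φ v) : 0 ≤ φ u := by
  refine hG.nonneg_of_bound (u := u) fun r hr => ?_
  have h1 := hG.three r u v hr huv.le
  have h2 : (u - r) * φ u ≤ (u - r) * φ v := mul_le_mul_of_nonneg_left h (by linarith)
  have h3 : (v - u) * φ r ≤ (v - u) * φ u := by nlinarith
  exact le_of_mul_le_mul_left h3 (by linarith)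

lemma Good.nonpos (hG : Good μ φ) (r : ℝ) : φ r ≤ 0 := by
  have := Q_le_one μ r
  rw [hG.eq] at this
  exact Real.exp_le_one_iff.1 this

/-- Grünbaum's inequality. -/
lemma Good.grunbaum (hG : Good μ φ) (hid : Integrable (fun x : ℝ => x) μ) :
    -1 ≤ φ (∫ s, s ∂μ) := by
  set c := ∫ s, s ∂μ with hc
  by_contra hcon
  have hcon : φ c < -1 := not_le.1 hcon
  have hconv : ConvexOn ℝ univ (-φ) := (concave_of_three hG.three).neg
  obtain ⟨k, k', h1, h2⟩ := hconv.exists_affine_le_of_lt_real (x := c) (a := (1 - φ c) / 2)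
    (mem_univ _) (by simp only [Pi.neg_apply]; linarith) isClosed_univ
    (hG.cont.neg.continuousOn.lowerSemicontinuousOn)
  have h1' : ∀ y, φ y ≤ -(k * y + k') := fun y => by
    have := h1 y (mem_univ _)
    simp only [Pi.neg_apply] at this
    linarith
  have hk : 0 < k := by
    by_contra hk
    have hk : k ≤ 0 := not_lt.1 hk
    have := hG.nonneg_of_bound (u := c) (k := -((1 - φ c) / 2)) fun r hr => by
      have := h1' r
      nlinarith
    linarith
  have := mean_le (expo (-k' / k) (1 / k)) μ (expo_integrable _ _) hid fun r => by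
    rw [expo_Q _ _ (by positivity)]
    refine le_min (Q_le_one μ r) ?_
    rw [hG.eq]
    refine Real.exp_le_exp.2 ((h1' r).trans (le_of_eq ?_))
    field_simp
    ring
  rw [expo_mean, ← hc] at this
  have h3 : c * k ≤ (-k' / k + 1 / k) * k := mul_le_mul_of_nonneg_right this hk.le
  have h4 : (-k' / k + 1 / k) * k = -k' + 1 := by field_simp
  nlinarith

lemma Good.finish (hG : Good μ φ) (hid : Integrable (fun x : ℝ => x) μ)
    (hmean : ∫ s, s ∂μ = 4 / 3) (σ l : ℝ) (hσ : 0 < σ)
    (h : ∀ r, (l ≤ w r ∧ -1 - σ * (r - 4 / 3) ≤ φ r) ∨ (w r ≤ l ∧ φ r ≤ -1 - σ * (r - 4 / 3)) ∨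
      w r = l) :
    ∫ s, truncExpWeight s ∂μ ≤ 1 - 4 / 9 * Real.exp (-(1 / 3)) := by
  refine le_trans (g_compare μ (expo (4 / 3 - 1 / σ) (1 / σ)) hid (expo_integrable _ _)
    (by rw [expo_mean, hmean]; ring) l fun r => ?_) ?_
  · rw [expo_Q _ _ (by positivity)]
    have e : -((r - (4 / 3 - 1 / σ)) / (1 / σ)) = -1 - σ * (r - 4 / 3) := by
      field_simp; ring
    rw [e]
    rcases h r with ⟨h1, h2⟩ | ⟨h1, h2⟩ | h1
    · refine mul_nonneg (by linarith) (sub_nonneg.2 ((min_le_right _ _).trans ?_))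
      rw [hG.eq]; exact Real.exp_le_exp.2 h2
    · refine mul_nonneg_of_nonpos_of_nonpos (by linarith)
        (sub_nonpos.2 (le_min (Q_le_one μ r) ?_))
      rw [hG.eq]; exact Real.exp_le_exp.2 h2
    · rw [h1]; simp
  · rw [expo_g]
    exact expo_bound _ (by positivity)

/-- left point of the level pair of width `d` -/
noncomputable def y1 (d : ℝ) : ℝ := d / (Real.exp d - 1)

lemma y1_pos {d : ℝ} (hd : 0 < d) : 0 < y1 d :=
  div_pos hd (by linarith [Real.add_one_lt_exp hd.ne'])

lemma y1_le_one {d : ℝ} (hd : 0 < d) : y1 d ≤ 1 := by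
  unfold y1
  rw [div_le_one (by linarith [Real.add_one_lt_exp hd.ne'])]
  linarith [Real.add_one_le_exp d]

lemma one_le_y2 {d : ℝ} (hd : 0 < d) : 1 ≤ y1 d + d := by
  unfold y1
  have h0 : 0 < Real.exp d - 1 := by linarith [Real.add_one_lt_exp hd.ne']
  rw [div_add' _ _ _ h0.ne', le_div_iff₀ h0]
  have h1 := Real.add_one_le_exp (-d)
  have h2 : Real.exp (-d) * Real.exp d = 1 := by rw [← Real.exp_add]; simp
  have h3 := mul_le_mul_of_nonneg_right h1 (Real.exp_pos d).le
  nlinarith

lemma w_y2 {d : ℝ} (hd : 0 < d) : w (y1 d + d) = w (y1 d) := by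
  have h0 : 0 < Real.exp d - 1 := by linarith [Real.add_one_lt_exp hd.ne']
  have hy := y1_pos hd
  rw [w_of_nonneg (by linarith), w_of_nonneg hy.le, neg_add, Real.exp_add]
  have h1 : y1 d + d = y1 d * Real.exp d := by
    unfold y1; field_simp; ring
  have h2 : Real.exp d * Real.exp (-d) = 1 := by rw [← Real.exp_add]; simp
  rw [h1]
  calc y1 d * Real.exp d * (Real.exp (-y1 d) * Real.exp (-d))
      = y1 d * Real.exp (-y1 d) * (Real.exp d * Real.exp (-d)) := by ring
    _ = _ := by rw [h2, mul_one]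

lemma y1_le {d : ℝ} (hd : 0 < d) : y1 d ≤ 2 / d := by
  unfold y1
  have h0 : 0 < Real.exp d - 1 := by linarith [Real.add_one_lt_exp hd.ne']
  rw [div_le_div_iff₀ h0 hd]
  have := Real.quadratic_le_exp_of_nonneg hd.le
  nlinarith

lemma y1_contOn : ContinuousOn y1 (Ioi 0) := by
  unfold y1
  refine ContinuousOn.div (by fun_prop) (by fun_prop) fun d hd => ?_
  have hd : 0 < d := hd
  linarith [Real.add_one_lt_exp hd.ne']

lemma y2_quarter : y1 (1 / 4) + 1 / 4 ≤ 4 / 3 := by
  have := y1_le_one (d := 1 / 4) (by norm_num)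
  linarith

theorem Good.main (hG : Good μ φ) (hid : Integrable (fun x : ℝ => x) μ)
    (hmean : ∫ s, s ∂μ = 4 / 3) :
    ∫ s, truncExpWeight s ∂μ ≤ 1 - 4 / 9 * Real.exp (-(1 / 3)) := by
  have hgr : -1 ≤ φ (4 / 3) := by have := hG.grunbaum hid; rwa [hmean] at this
  by_cases hA : ∀ r, 0 ≤ r → φ 0 - (1 + φ 0) * (3 / 4 * r) ≤ φ r
  · have h0 : -1 < φ 0 := by
      by_contra h
      have h : φ 0 ≤ -1 := not_lt.1 h
      have := hG.flat (u := 0) (v := 4 / 3) (by norm_num) (by linarith)
      linarith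
    refine hG.finish hid hmean (3 / 4 * (1 + φ 0)) 0 (by linarith) fun r => ?_
    rcases le_total 0 r with hr | hr
    · left
      refine ⟨w_nonneg r, le_trans (le_of_eq ?_) (hA r hr)⟩
      ring
    · right; right; exact w_of_nonpos hr
  · push Not at hA
    obtain ⟨r1, hr0, hr1⟩ := hA
    have hr0' : 0 < r1 := by
      rcases hr0.eq_or_lt with h | h
      · subst h; simp at hr1
      · exact h
    -- the defect function
    set D : ℝ → ℝ := fun d => d * (φ (y1 d) + 1) + (φ (y1 d + d) - φ (y1 d)) * (4 / 3 - y1 d)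
      with hD
    have hDc : ContinuousOn D (Ioi 0) := by
      have h1 : ContinuousOn (fun d => φ (y1 d)) (Ioi 0) := hG.cont.comp_continuousOn y1_contOn
      have h2 : ContinuousOn (fun d => φ (y1 d + d)) (Ioi 0) :=
        hG.cont.comp_continuousOn (y1_contOn.add continuousOn_id)
      exact (continuousOn_id.mul (h1.add continuousOn_const)).add
        ((h2.sub h1).mul (continuousOn_const.sub y1_contOn))
    have hD0 : 0 ≤ D (1 / 4) := by
      have h1 := hG.three (y1 (1 / 4)) (y1 (1 / 4) + 1 / 4) (4 / 3) (by linarith) y2_quarter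
      simp only [hD]
      nlinarith
    obtain ⟨d1, hd1, hD1⟩ : ∃ d1, 1 / 4 ≤ d1 ∧ D d1 ≤ 0 := by
      set E : ℝ → ℝ := fun u => (r1 - u) * (φ u + 1) + (φ r1 - φ u) * (4 / 3 - u) with hE
      have hEc : Continuous E := by
        have := hG.cont
        fun_prop
      have hE0 : E 0 < 0 := by simp only [hE]; nlinarith
      have hev : ∀ᶠ u in 𝓝 (0 : ℝ), E u < 0 ∧ u < r1 :=
        (hEc.continuousAt.eventually (gt_mem_nhds hE0)).and (gt_mem_nhds hr0')
      have hy : Tendsto y1 atTop (𝓝 0) := by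
        refine tendsto_of_tendsto_of_tendsto_of_le_of_le' tendsto_const_nhds
          (tendsto_id.const_div_atTop 2) ?_ ?_
        · filter_upwards [eventually_gt_atTop 0] with d hd using (y1_pos hd).le
        · filter_upwards [eventually_gt_atTop 0] with d hd using y1_le hd
      obtain ⟨d, ⟨h1, h2⟩, h3, h4⟩ := ((hy.eventually hev).and
        ((eventually_ge_atTop (1 / 4)).and (eventually_ge_atTop r1))).exists
      refine ⟨d, h3, ?_⟩
      have hd : 0 < d := by linarith
      have hp := y1_pos hd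
      have hl := y1_le_one hd
      have h5 := hG.three (y1 d) r1 (y1 d + d) h2.le (by linarith)
      simp only [hE] at h1
      simp only [hD]
      set u := y1 d
      have h6 : (r1 - u) * (φ (u + d) - φ u) ≤ d * (φ r1 - φ u) := by nlinarith
      have h7 := mul_le_mul_of_nonneg_right h6 (by linarith : 0 ≤ 4 / 3 - u)
      have h8 : (r1 - u) * (d * (φ u + 1) + (φ (u + d) - φ u) * (4 / 3 - u)) ≤ (r1 - u) * 0 := by
        have := mul_neg_of_pos_of_neg hd h1
        nlinarith
      exact le_of_mul_le_mul_left h8 (by linarith)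
    obtain ⟨d, ⟨hd, -⟩, hDd⟩ : ∃ d ∈ Icc (1 / 4 : ℝ) d1, D d = 0 :=
      intermediate_value_Icc' hd1 (hDc.mono fun x hx => by
        have := hx.1
        show 0 < x
        linarith) ⟨hD1, hD0⟩
    have hd0 : 0 < d := by linarith
    have hp := y1_pos hd0
    have hl := y1_le_one hd0
    have h2 := one_le_y2 hd0
    have hw := w_y2 hd0
    simp only [hD] at hDd
    set u := y1 d with hu
    set σ := (φ u - φ (u + d)) / d with hσ
    have hσd : φ (u + d) = φ u - σ * d := by rw [hσ]; field_simp; ring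
    have hφu : φ u = -1 - σ * (u - 4 / 3) := by
      rw [hσd] at hDd
      have : d * (φ u + 1 + σ * (u - 4 / 3)) = 0 := by linarith
      rcases mul_eq_zero.1 this with h | h
      · linarith
      · linarith
    have hσ0 : 0 < σ := by
      by_contra h
      have h : σ ≤ 0 := not_lt.1 h
      have h1 : φ u ≤ φ (u + d) := by nlinarith
      have h3 := hG.flat (by linarith : u < u + d) h1
      have h4 := hG.anti (by linarith : u ≤ u + d)
      have h5 : σ * d = 0 := by linarith
      have h6 : σ = 0 := by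
        rcases mul_eq_zero.1 h5 with h | h
        · exact h
        · linarith
      rw [h6] at hφu
      linarith
    refine hG.finish hid hmean σ (w u) hσ0 fun r => ?_
    rcases le_total r u with hru | hru
    · right; left
      refine ⟨w_mono hru hl, ?_⟩
      have h5 := hG.three r u (u + d) hru (by linarith)
      rw [hσd] at h5
      have : d * φ r ≤ d * (-1 - σ * (r - 4 / 3)) := by nlinarith
      exact le_of_mul_le_mul_left this hd0
    · rcases le_total r (u + d) with hrv | hrv
      · left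
        constructor
        · rcases le_total r 1 with h | h
          · exact w_mono hru h
          · rw [← hw]; exact w_anti hrv h
        · have h5 := hG.three u r (u + d) hru hrv
          rw [hσd] at h5
          have : d * (-1 - σ * (r - 4 / 3)) ≤ d * φ r := by nlinarith
          exact le_of_mul_le_mul_left this hd0
      · right; left
        refine ⟨by rw [← hw]; exact w_anti hrv h2, ?_⟩
        have h5 := hG.three u (u + d) r (by linarith) hrv
        rw [hσd] at h5
        have : d * φ r ≤ d * (-1 - σ * (r - 4 / 3)) := by nlinarith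
        exact le_of_mul_le_mul_left this hd0

end

end Crest.Agent.R280
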