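import Crest.Agent.R280.Core

set_option autoImplicit false

open MeasureTheory Set Real Filter Topology
open scoped ENNReal
open Crest.AlgGeometry

namespace Crest.Agent.R280

theorem upper {N : ℕ} (a : Fin N → ℝ) (ha : ∑ i, a i = 0) :
    ∫ x, truncExpWeight (4 / 3 + ∑ i, a i * x i) ∂(PN N) ≤ 1 - 4 / 9 * Real.exp (-(1 / 3)) := by
  by_cases h : ∃ i, 0 < a i
  · obtain ⟨i, hi⟩ := h
    have hG := good_log (law (4 / 3) a) (W_law _ N a) hi (M_law _ a i hi)
    have := hG.main (integrable_id_law _ a) (by rw [integral_id_law, ha, add_zero])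
    unfold law at this
    rwa [integral_map (meas_lin _ a).aemeasurable g_meas.aestronglyMeasurable] at this
  · push Not at h
    have h0 : ∀ i, a i = 0 := fun i =>
      (Finset.sum_eq_zero_iff_of_nonpos fun j _ => h j).1 ha i (Finset.mem_univ i)
    simp only [h0, zero_mul, Finset.sum_const_zero, add_zero, integral_const, probReal_univ,
      smul_eq_mul, one_mul]
    rw [g_of_nonneg (by norm_num)]
    have h1 := small_bound 0 le_rfl (by norm_num)
    have h2 := exp_third
    norm_num at h1 h2 ⊢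
    linarith

lemma G_two (y : ℝ) :
    1 - 4 / 9 * Real.exp (y / 2) ≤ ∫ x, truncExpWeight (y + 2 * x) ∂nu := by
  rcases le_total y 0 with hy | hy
  · rw [G_of_nonpos _ _ hy two_pos]
    apply le_of_eq; ring
  · rw [G_of_nonneg _ _ hy zero_le_two]
    set t := Real.exp (y / 2) with ht
    have ht1 : 1 ≤ t := Real.one_le_exp (by linarith)
    have hlog : Real.log t = y / 2 := by rw [ht, Real.log_exp]
    have h1 := Real.le_log_one_add_of_nonneg (x := t - 1) (by linarith)
    rw [show 1 + (t - 1) = t by ring, hlog, div_le_iff₀ (by linarith)] at h1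
    have h2 : Real.exp (-y) = 1 / t ^ 2 := by
      rw [ht, ← Real.exp_nat_mul, one_div, ← Real.exp_neg]; congr 1; push_cast; ring
    rw [h2, one_div, inv_mul_eq_div, le_div_iff₀ (by positivity)]
    have h3 : 0 ≤ (t - 1) ^ 3 * (4 * t + 7) := mul_nonneg (pow_nonneg (by linarith) 3) (by linarith)
    have h4 : (t + 1) * ((1 - 4 / 9 * t) * t ^ 2) ≤ (t + 1) * ((1 + y) / (1 + 2) + 2 / (1 + 2) ^ 2) := by
      nlinarith
    exact le_of_mul_le_mul_left h4 (by linarith)

lemma exp_nu_integrable (b : ℝ) (hb : b < 1) : Integrable (fun x => Real.exp (b * x)) nu := by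
  rw [integrable_nu]
  have := integrableOn_exp_mul_Ioi (a := b - 1) (by linarith) 0
  refine this.congr_fun (fun x _ => ?_) measurableSet_Ioi
  simp only
  rw [← Real.exp_add]; congr 1; ring

lemma exp_nu (b : ℝ) (hb : b < 1) : ∫ x, Real.exp (b * x) ∂nu = 1 / (1 - b) := by
  rw [integral_nu, setIntegral_congr_fun (g := fun x => Real.exp ((b - 1) * x)) measurableSet_Ioi,
    integral_exp_mul_Ioi (by linarith)]
  · have : 1 - b ≠ 0 := by linarith
    have : b - 1 ≠ 0 := by linarith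
    simp only [mul_zero, Real.exp_zero]
    field_simp
    ring
  · intro x _
    simp only
    rw [← Real.exp_add]; congr 1; ring

theorem lower (n : ℕ) (b : ℝ) (hb : b < 2) :
    1 - 4 / 9 * (Real.exp (2 / 3) * (1 / (1 - b / 2)) ^ n) ≤
      ∫ x, truncExpWeight (4 / 3 + ∑ i, (Fin.cons 2 (fun _ => b) : Fin (n + 1) → ℝ) i * x i)
        ∂(PN (n + 1)) := by
  have hp := measurePreserving_piFinSuccAbove (fun _ : Fin (n + 1) => nu) 0
  have hF : Measurable (fun p : ℝ × (Fin n → ℝ) => (4 / 3 + ∑ j, b * p.2 j) + 2 * p.1) := by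
    fun_prop
  have h1 : ∫ x, truncExpWeight (4 / 3 + ∑ i, (Fin.cons 2 (fun _ => b) : Fin (n + 1) → ℝ) i * x i)
        ∂(PN (n + 1)) = ∫ p : ℝ × (Fin n → ℝ), truncExpWeight ((4 / 3 + ∑ j, b * p.2 j) + 2 * p.1)
          ∂(nu.prod (PN n)) := by
    unfold PN
    rw [← hp.integral_comp']
    refine integral_congr_ae (Eventually.of_forall fun x => ?_)
    simp only [Fin.sum_univ_succ, Fin.cons_zero, Fin.cons_succ,
      MeasurableEquiv.piFinSuccAbove_apply, Fin.insertNthEquiv, Equiv.coe_fn_symm_mk,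
      Fin.removeNth, Fin.zero_succAbove]
    congr 1; ring
  have hint := g_integrable (nu.prod (PN n)) _ hF
  rw [h1, integral_prod_symm _ hint]
  have he : ∀ x : Fin n → ℝ, Real.exp ((4 / 3 + ∑ j, b * x j) / 2)
      = Real.exp (2 / 3) * ∏ j, Real.exp (b / 2 * x j) := by
    intro x
    rw [← Real.exp_sum, ← Real.exp_add, add_div, Finset.sum_div]
    congr 1
    refine congrArg₂ _ (by norm_num) (Finset.sum_congr rfl fun j _ => by ring)
  have hi2 : Integrable (fun x : Fin n → ℝ => ∏ j, Real.exp (b / 2 * x j)) (PN n) :=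
    Integrable.fintype_prod (μ := fun _ => nu) (f := fun _ x => Real.exp (b / 2 * x))
      fun _ => exp_nu_integrable _ (by linarith)
  have hi3 : ∫ x : Fin n → ℝ, ∏ j, Real.exp (b / 2 * x j) ∂(PN n) = (1 / (1 - b / 2)) ^ n := by
    unfold PN
    rw [integral_fintype_prod_eq_pow (fun x => Real.exp (b / 2 * x)), exp_nu _ (by linarith)]
    simp
  have hi4 : Integrable (fun x : Fin n → ℝ =>
      4 / 9 * (Real.exp (2 / 3) * ∏ j, Real.exp (b / 2 * x j))) (PN n) :=
    (hi2.const_mul _).const_mul _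
  have h5 : ∫ x : Fin n → ℝ, (1 - 4 / 9 * (Real.exp (2 / 3) * ∏ j, Real.exp (b / 2 * x j)))
      ∂(PN n) = 1 - 4 / 9 * (Real.exp (2 / 3) * (1 / (1 - b / 2)) ^ n) := by
    rw [integral_sub (integrable_const _) hi4, integral_const_mul, integral_const_mul, hi3]
    simp
  rw [← h5]
  refine integral_mono ((integrable_const _).sub hi4) hint.integral_prod_right fun x => ?_
  have := G_two (4 / 3 + ∑ j, b * x j)
  rw [he] at this
  exact this

theorem sharp (ε : ℝ) (hε : 0 < ε) : ∃ (N : ℕ) (a : Fin N → ℝ), 1 ≤ N ∧ ∑ i, a i = 0 ∧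
    1 - 4 / 9 * Real.exp (-(1 / 3)) - ε <
      ∫ x, truncExpWeight (4 / 3 + ∑ i, a i * x i) ∂(PN N) := by
  have h1 := Real.tendsto_one_add_div_pow_exp 1
  have h2 : Tendsto (fun n : ℕ => 1 - 4 / 9 * (Real.exp (2 / 3) * ((1 + 1 / (n : ℝ)) ^ n)⁻¹)) atTop
      (𝓝 (1 - 4 / 9 * (Real.exp (2 / 3) * (Real.exp 1)⁻¹))) :=
    (((h1.inv₀ (Real.exp_pos _).ne').const_mul _).const_mul _).const_sub _
  have h3 : Real.exp (2 / 3) * (Real.exp 1)⁻¹ = Real.exp (-(1 / 3)) := by
    rw [← Real.exp_neg, ← Real.exp_add]; norm_num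
  rw [h3] at h2
  obtain ⟨n, hn1, hn2⟩ := ((h2.eventually (lt_mem_nhds (by linarith :
    1 - 4 / 9 * Real.exp (-(1 / 3)) - ε < 1 - 4 / 9 * Real.exp (-(1 / 3))))).and
    (eventually_gt_atTop 0)).exists
  have hn : (0 : ℝ) < n := by exact_mod_cast hn2
  refine ⟨n + 1, Fin.cons 2 (fun _ => -2 / n), by omega, ?_, ?_⟩
  · simp only [Fin.sum_univ_succ, Fin.cons_zero, Fin.cons_succ, Finset.sum_const,
      Finset.card_univ, Fintype.card_fin, nsmul_eq_mul]
    field_simp
    ring
  · refine lt_of_lt_of_le hn1 (le_trans (le_of_eq ?_) (lower n (-2 / n) ?_))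
    · rw [← inv_pow, one_div (1 - _)]
      congr 5
      ring
    · have : 0 < 2 / (n : ℝ) := by positivity
      rw [neg_div]; linarith

end Crest.Agent.R280
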