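import Crest.Agent.R280.Basic
import Crest.Prelude.Def_TruncExpWeight

set_option autoImplicit false

open MeasureTheory Set Real
open scoped ENNReal
open Crest.AlgGeometry

namespace Crest.Agent.R280

/-- real-valued survival function -/
noncomputable def Q (μ : Measure ℝ) (r : ℝ) : ℝ := μ.real (Ici r)

noncomputable def step (s r : ℝ) : ℝ := if r ≤ s then 1 else 0

lemma meas_step : Measurable (fun p : ℝ × ℝ => step p.1 p.2) := by
  unfold step
  exact Measurable.ite (measurableSet_le measurable_snd measurable_fst) measurable_const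
    measurable_const

lemma integral_step (μ : Measure ℝ) (r : ℝ) : ∫ s, step s r ∂μ = Q μ r := by
  have : (fun s => step s r) = indicator (Ici r) (fun _ => (1 : ℝ)) := by
    funext s; unfold step; simp [indicator_apply]
  rw [this, integral_indicator measurableSet_Ici]
  simp [Q]

lemma kernel_eq (ψ : ℝ → ℝ) (s r : ℝ) : ψ r * (step s r - step 0 r) =
    indicator (Ioc 0 s) ψ r - indicator (Ioc s 0) ψ r := by
  unfold step
  simp only [indicator_apply, mem_Ioc]
  by_cases h1 : r ≤ s <;> by_cases h2 : r ≤ 0 <;> simp [h1, h2, not_lt.2, not_le.1]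

lemma kernel_bound (ψ : ℝ → ℝ) (C : ℝ) (hb : ∀ r, |ψ r| ≤ C) (s r : ℝ) :
    ‖ψ r * (step s r - step 0 r)‖ ≤ indicator (uIoc 0 s) (fun _ => C) r := by
  have hC : 0 ≤ C := (abs_nonneg _).trans (hb 0)
  classical
  unfold step
  rw [indicator_apply]
  simp only [mem_uIoc]
  by_cases h1 : r ≤ s <;> by_cases h2 : r ≤ 0 <;> simp [h1, h2, not_lt.2, not_le.1, hb]

lemma layer (μ : Measure ℝ) [IsProbabilityMeasure μ] (hid : Integrable (fun x : ℝ => x) μ)
    (ψ : ℝ → ℝ) (hψ : Measurable ψ) (C : ℝ) (hb : ∀ r, |ψ r| ≤ C) :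
    Integrable (fun r => ψ r * (Q μ r - step 0 r)) volume ∧
      ∫ s, (∫ r in (0 : ℝ)..s, ψ r) ∂μ = ∫ r, ψ r * (Q μ r - step 0 r) := by
  have hm : Measurable (fun p : ℝ × ℝ => ψ p.2 * (step p.1 p.2 - step 0 p.2)) :=
    (hψ.comp measurable_snd).mul (meas_step.sub
      (meas_step.comp (measurable_const.prodMk measurable_snd)))
  have hind : ∀ s : ℝ, Integrable (indicator (uIoc 0 s) (fun _ : ℝ => C)) volume := by
    intro s
    rw [integrable_indicator_iff measurableSet_uIoc]
    exact integrableOn_const (by simp [Real.volume_uIoc])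
  have hs : ∀ s : ℝ, Integrable (fun r => ψ r * (step s r - step 0 r)) volume := fun s =>
    (hind s).mono' (hm.comp (measurable_const.prodMk measurable_id)).aestronglyMeasurable
      (Filter.Eventually.of_forall fun r => kernel_bound ψ C hb s r)
  have hint : Integrable (fun p : ℝ × ℝ => ψ p.2 * (step p.1 p.2 - step 0 p.2))
      (μ.prod volume) := by
    rw [integrable_prod_iff hm.aestronglyMeasurable]
    refine ⟨Filter.Eventually.of_forall hs, ?_⟩
    refine (hid.norm.const_mul C).mono' hm.aestronglyMeasurable.norm.integral_prod_right'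
      (Filter.Eventually.of_forall fun s => ?_)
    rw [Real.norm_of_nonneg (integral_nonneg fun r => norm_nonneg _)]
    refine (integral_mono (hs s).norm (hind s) fun r => kernel_bound ψ C hb s r).trans ?_
    rw [integral_indicator measurableSet_uIoc]
    simp [Measure.real, Real.volume_uIoc, mul_comm]
  have hin : ∀ r, ∫ s, ψ r * (step s r - step 0 r) ∂μ = ψ r * (Q μ r - step 0 r) := by
    intro r
    have h1 : Integrable (fun s => step s r) μ := by
      refine (integrable_const (1 : ℝ)).mono'
        (meas_step.comp (measurable_id.prodMk measurable_const)).aestronglyMeasurable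
        (Filter.Eventually.of_forall fun s => ?_)
      unfold step; split_ifs <;> simp
    rw [integral_const_mul, integral_sub h1 (integrable_const _), integral_step]
    simp
  have hloc : ∀ a b : ℝ, IntegrableOn ψ (Ioc a b) volume := fun a b =>
    Measure.integrableOn_of_bounded (M := C) (by simp) hψ.aestronglyMeasurable
      (Filter.Eventually.of_forall fun r => hb r)
  constructor
  · have := hint.integral_prod_right
    simpa only [hin] using this
  · have h := integral_integral_swap (f := fun s r => ψ r * (step s r - step 0 r)) hint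
    simp only [hin] at h
    rw [← h]
    refine integral_congr_ae (Filter.Eventually.of_forall fun s => ?_)
    simp only [kernel_eq]
    rw [integral_sub ((integrable_indicator_iff measurableSet_Ioc).2 (hloc _ _))
      ((integrable_indicator_iff measurableSet_Ioc).2 (hloc _ _)),
      integral_indicator measurableSet_Ioc, integral_indicator measurableSet_Ioc]
    rfl

lemma compare (μ μ' : Measure ℝ) [IsProbabilityMeasure μ] [IsProbabilityMeasure μ']
    (hid : Integrable (fun x : ℝ => x) μ) (hid' : Integrable (fun x : ℝ => x) μ')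
    (ψ : ℝ → ℝ) (hψ : Measurable ψ) (C : ℝ) (hb : ∀ r, |ψ r| ≤ C)
    (h : ∀ r, 0 ≤ ψ r * (Q μ r - Q μ' r)) :
    ∫ s, (∫ r in (0 : ℝ)..s, ψ r) ∂μ' ≤ ∫ s, (∫ r in (0 : ℝ)..s, ψ r) ∂μ := by
  obtain ⟨h1, h2⟩ := layer μ hid ψ hψ C hb
  obtain ⟨h1', h2'⟩ := layer μ' hid' ψ hψ C hb
  rw [h2, h2']
  refine integral_mono h1' h1 fun r => ?_
  have := h r
  simp only
  nlinarith

lemma mean_le (μ μ' : Measure ℝ) [IsProbabilityMeasure μ] [IsProbabilityMeasure μ']
    (hid : Integrable (fun x : ℝ => x) μ) (hid' : Integrable (fun x : ℝ => x) μ')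
    (h : ∀ r, Q μ' r ≤ Q μ r) : ∫ s, s ∂μ' ≤ ∫ s, s ∂μ := by
  have := compare μ μ' hid hid' (fun _ => 1) measurable_const 1 (by simp)
    (fun r => by simpa using h r)
  simpa using this

/-- the Gamma(2) density -/
noncomputable def w (y : ℝ) : ℝ := max y 0 * Real.exp (-y)

lemma w_cont : Continuous w := by unfold w; fun_prop

lemma w_nonneg (y : ℝ) : 0 ≤ w y := mul_nonneg (le_max_right _ _) (Real.exp_pos _).le

lemma w_of_nonneg {y : ℝ} (hy : 0 ≤ y) : w y = y * Real.exp (-y) := by
  unfold w; rw [max_eq_left hy]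

lemma w_of_nonpos {y : ℝ} (hy : y ≤ 0) : w y = 0 := by
  unfold w; rw [max_eq_right hy, zero_mul]

lemma w_le_one (y : ℝ) : w y ≤ 1 := by
  rcases le_total y 0 with hy | hy
  · rw [w_of_nonpos hy]; exact zero_le_one
  · rw [w_of_nonneg hy, Real.exp_neg, ← div_eq_mul_inv, div_le_one (Real.exp_pos _)]
    linarith [Real.add_one_le_exp y]

lemma w_mono {x y : ℝ} (hxy : x ≤ y) (hy : y ≤ 1) : w x ≤ w y := by
  rcases le_total x 0 with hx | hx
  · rw [w_of_nonpos hx]; exact w_nonneg _
  · rw [w_of_nonneg hx, w_of_nonneg (hx.trans hxy),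
      show -y = -(y - x) + -x by ring, Real.exp_add, ← mul_assoc]
    refine mul_le_mul_of_nonneg_right ?_ (Real.exp_pos _).le
    have h1 := Real.add_one_le_exp (-(y - x))
    have hy0 : 0 ≤ y := hx.trans hxy
    nlinarith [mul_le_mul_of_nonneg_left h1 hy0]

lemma w_anti {x y : ℝ} (hxy : x ≤ y) (hx : 1 ≤ x) : w y ≤ w x := by
  rw [w_of_nonneg (by linarith : 0 ≤ x), w_of_nonneg (by linarith : 0 ≤ y),
      show -x = (y - x) + -y by ring, Real.exp_add, ← mul_assoc]
  refine mul_le_mul_of_nonneg_right ?_ (Real.exp_pos _).le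
  have h1 := Real.add_one_le_exp (y - x)
  nlinarith [mul_le_mul_of_nonneg_left h1 (by linarith : 0 ≤ x)]

lemma g_of_nonpos {y : ℝ} (hy : y ≤ 0) : truncExpWeight y = 1 := by
  unfold truncExpWeight; rw [if_pos hy]

lemma g_of_nonneg {y : ℝ} (hy : 0 ≤ y) : truncExpWeight y = (1 + y) * Real.exp (-y) := by
  unfold truncExpWeight
  split_ifs with h
  · have : y = 0 := le_antisymm h hy
    subst this; simp
  · rfl

lemma integral_w (s : ℝ) : ∫ r in (0 : ℝ)..s, w r = 1 - truncExpWeight s := by
  rcases le_total s 0 with hs | hs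
  · rw [g_of_nonpos hs, sub_self, intervalIntegral.integral_congr (g := fun _ => 0)]
    · simp
    · intro r hr
      rw [uIcc_of_ge hs] at hr
      exact w_of_nonpos hr.2
  · rw [g_of_nonneg hs, intervalIntegral.integral_congr (g := fun r => r * Real.exp (-r))]
    · have hd : ∀ x ∈ uIcc (0 : ℝ) s, HasDerivAt (fun r => -((1 + r) * Real.exp (-r)))
          (x * Real.exp (-x)) x := by
        intro x _
        have h1 : HasDerivAt (fun r : ℝ => 1 + r) 1 x := by simpa using (hasDerivAt_id x).const_add 1
        have h2 : HasDerivAt (fun r : ℝ => Real.exp (-r)) (Real.exp (-x) * -1) x :=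
          (hasDerivAt_neg x).exp
        refine ((h1.mul h2).neg).congr_deriv ?_
        ring
      rw [intervalIntegral.integral_eq_sub_of_hasDerivAt hd
        (Continuous.intervalIntegrable (by fun_prop) _ _)]
      simp; ring
    · intro r hr
      rw [uIcc_of_le hs] at hr
      exact w_of_nonneg hr.1

lemma g_meas : Measurable truncExpWeight := by
  unfold truncExpWeight
  exact Measurable.ite measurableSet_Iic measurable_const (by fun_prop)

lemma g_nonneg (y : ℝ) : 0 ≤ truncExpWeight y := by
  rcases le_total y 0 with hy | hy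
  · rw [g_of_nonpos hy]; exact zero_le_one
  · rw [g_of_nonneg hy]; positivity

lemma g_le_one (y : ℝ) : truncExpWeight y ≤ 1 := by
  rcases le_total y 0 with hy | hy
  · rw [g_of_nonpos hy]
  · rw [g_of_nonneg hy, Real.exp_neg, ← div_eq_mul_inv, div_le_one (Real.exp_pos _)]
    linarith [Real.add_one_le_exp y]

lemma g_integrable {X : Type*} [MeasurableSpace X] (μ : Measure X) [IsFiniteMeasure μ]
    (f : X → ℝ) (hf : Measurable f) : Integrable (fun x => truncExpWeight (f x)) μ :=
  (integrable_const (1 : ℝ)).mono' (g_meas.comp hf).aestronglyMeasurable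
    (Filter.Eventually.of_forall fun x => by
      rw [Real.norm_of_nonneg (g_nonneg _)]; exact g_le_one _)

/-- the crossing comparison -/
lemma g_compare (μ μ' : Measure ℝ) [IsProbabilityMeasure μ] [IsProbabilityMeasure μ']
    (hid : Integrable (fun x : ℝ => x) μ) (hid' : Integrable (fun x : ℝ => x) μ')
    (hmean : ∫ s, s ∂μ = ∫ s, s ∂μ') (l : ℝ)
    (h : ∀ r, 0 ≤ (w r - l) * (Q μ r - Q μ' r)) :
    ∫ s, truncExpWeight s ∂μ ≤ ∫ s, truncExpWeight s ∂μ' := by
  have := compare μ μ' hid hid' (fun r => w r - l) (w_cont.measurable.sub measurable_const)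
    (1 + |l|) (fun r => by
      have h1 := w_nonneg r
      have h2 := w_le_one r
      have h3 := le_abs_self l
      have h4 := neg_abs_le l
      rw [abs_le]; constructor <;> linarith) h
  have h1 : ∀ s : ℝ, ∫ r in (0 : ℝ)..s, (w r - l) = 1 - truncExpWeight s - l * s := by
    intro s
    rw [intervalIntegral.integral_sub (w_cont.intervalIntegrable _ _)
      (continuous_const.intervalIntegrable _ _), integral_w]
    simp [mul_comm]
  have h2 : ∀ (m : Measure ℝ) [IsProbabilityMeasure m], Integrable (fun x : ℝ => x) m →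
      ∫ s, (1 - truncExpWeight s - l * s) ∂m = 1 - ∫ s, truncExpWeight s ∂m - l * ∫ s, s ∂m := by
    intro m _ hm
    have hg := g_integrable m (fun x => x) measurable_id
    have hg1 : Integrable (fun s => 1 - truncExpWeight s) m := (integrable_const _).sub hg
    rw [integral_sub hg1 (hm.const_mul l),
      integral_sub (integrable_const _) hg, integral_const_mul]
    simp
  simp only [h1] at this
  rw [h2 μ hid, h2 μ' hid', hmean] at this
  linarith

/-- shifted and scaled exponential law -/
noncomputable def expo (β α : ℝ) : Measure ℝ := nu.map fun x => β + α * x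

instance (β α : ℝ) : IsProbabilityMeasure (expo β α) :=
  Measure.isProbabilityMeasure_map (by fun_prop)

lemma expo_integrable (β α : ℝ) : Integrable (fun x : ℝ => x) (expo β α) := by
  unfold expo
  rw [integrable_map_measure (by fun_prop) (by fun_prop)]
  exact (integrable_const β).add (integrable_id_nu.const_mul α)

lemma expo_mean (β α : ℝ) : ∫ s, s ∂(expo β α) = β + α := by
  unfold expo
  rw [integral_map (by fun_prop) (by fun_prop), integral_add (integrable_const β)
    (integrable_id_nu.const_mul α), integral_const_mul, integral_id_nu]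
  simp

lemma expo_Q (β α : ℝ) (hα : 0 < α) (r : ℝ) :
    Q (expo β α) r = min 1 (Real.exp (-((r - β) / α))) := by
  unfold Q expo Measure.real
  rw [Measure.map_apply (by fun_prop) measurableSet_Ici]
  have : (fun x => β + α * x) ⁻¹' Ici r = Ici ((r - β) / α) := by
    ext x
    simp only [mem_preimage, mem_Ici, div_le_iff₀ hα]
    constructor <;> intro h <;> linarith
  rw [this]
  rcases le_total 0 ((r - β) / α) with h | h
  · rw [nu_Ici _ h, ENNReal.toReal_ofReal (Real.exp_pos _).le, min_eq_right]
    exact Real.exp_le_one_iff.2 (by linarith)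
  · rw [min_eq_left (Real.one_le_exp (by linarith))]
    have h1 : nu (Ici ((r - β) / α)) = 1 := by
      refine le_antisymm prob_le_one ?_
      have := nu_Ici 0 le_rfl
      simp only [neg_zero, Real.exp_zero, ENNReal.ofReal_one] at this
      rw [← this]
      exact measure_mono (Ici_subset_Ici.2 h)
    rw [h1]; simp

lemma expo_g (β α : ℝ) :
    ∫ s, truncExpWeight s ∂(expo β α) = ∫ x, truncExpWeight (β + α * x) ∂nu := by
  unfold expo
  rw [integral_map (by fun_prop) g_meas.aestronglyMeasurable]

lemma G_of_nonneg (β α : ℝ) (hβ : 0 ≤ β) (hα : 0 ≤ α) :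
    ∫ x, truncExpWeight (β + α * x) ∂nu
      = Real.exp (-β) * ((1 + β) / (1 + α) + α / (1 + α) ^ 2) := by
  rw [integral_nu, setIntegral_congr_fun (g := fun x => Real.exp (-β) * ((1 + β) *
    Real.exp (-(1 + α) * x) + α * (x * Real.exp (-((1 + α) * x))))) measurableSet_Ioi]
  · have h1 := integrableOn_exp_mul_Ioi (a := -(1 + α)) (by linarith) 0
    have h2 := integrableOn_mul_exp (1 + α) (by linarith)
    rw [integral_const_mul, integral_add (h1.const_mul _) (h2.const_mul _), integral_const_mul,
      integral_const_mul, integral_exp_mul_Ioi (by linarith), integral_mul_exp _ (by linarith)]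
    have : (1 + α) ≠ 0 := by linarith
    congr 1
    simp only [mul_zero, Real.exp_zero]
    field_simp
  · intro x hx
    have hx' : 0 < x := hx
    simp only
    rw [g_of_nonneg (by positivity), show -(1 + α) * x = -x + -(α * x) by ring,
      show -((1 + α) * x) = -x + -(α * x) by ring, show -(β + α * x) = -β + -(α * x) by ring,
      Real.exp_add, Real.exp_add]
    ring

lemma G_of_nonpos (β α : ℝ) (hβ : β ≤ 0) (hα : 0 < α) :
    ∫ x, truncExpWeight (β + α * x) ∂nu = 1 - Real.exp (β / α) * (α / (1 + α)) ^ 2 := by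
  have hk : 0 ≤ -β / α := div_nonneg (by linarith) hα.le
  have hi := g_integrable nu (fun x => β + α * x) (by fun_prop)
  have hm : Measurable (fun x => truncExpWeight (β + α * x)) := g_meas.comp (by fun_prop)
  rw [← integral_add_compl (measurableSet_Iic (a := -β / α)) hi, compl_Iic,
    nu_restrict_Ioi _ hk, integral_smul_measure,
    integral_map (by fun_prop) hm.aestronglyMeasurable,
    setIntegral_congr_fun (g := fun _ => (1 : ℝ)) measurableSet_Iic]
  · have h1 : ∀ x, β + α * (x + -β / α) = 0 + α * x := by
      intro x; field_simp; ring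
    simp only [h1]
    rw [G_of_nonneg 0 α le_rfl hα.le, ENNReal.toReal_ofReal (Real.exp_pos _).le, setIntegral_const,
      ← compl_Ioi, probReal_compl_eq_one_sub measurableSet_Ioi, Measure.real, nu_Ioi _ hk,
      ENNReal.toReal_ofReal (Real.exp_pos _).le, show -(-β / α) = β / α by ring]
    have : (1 + α) ≠ 0 := by linarith
    simp only [smul_eq_mul, neg_zero, Real.exp_zero]
    field_simp
    ring
  · intro x hx
    have hx' : x ≤ -β / α := hx
    rw [le_div_iff₀ hα] at hx'
    exact g_of_nonpos (by linarith)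

end Crest.Agent.R280
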